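import Vale.Agent.H30.NS.Core

/-!
TASK SUM for P113: smoothness and derivative formula of the periodised series of disjoint bumps
`bumpPer B η` from `Vale.Agent.H30.NS.Core`.
-/

namespace Vale.Agent.H10

open Vale.Agent.H30

section
variable (B : ℝ → ℝ) (η : ℕ → ℝ)

/-- The `j`-th derivative of the `N`-th term of `bumpSum`. -/
noncomputable def bumpTerm (j N : ℕ) (y : ℝ) : ℝ :=
  η N * (((N : ℝ) + 2) * ((N : ℝ) + 3)) ^ j *
    iteratedDeriv j B ((y - 1 / ((N : ℝ) + 3)) * (((N : ℝ) + 2) * ((N : ℝ) + 3)))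

/-- The termwise `j`-th derivative of `bumpSum`. -/
noncomputable def bumpDer (j : ℕ) (y : ℝ) : ℝ := ∑' N : ℕ, bumpTerm B η j N y

theorem deriv_eq_zero_of_eq_zero_Iic {f : ℝ → ℝ} (hf : Differentiable ℝ f) (a : ℝ)
    (h0 : ∀ s, s ≤ a → f s = 0) : ∀ s, s ≤ a → deriv f s = 0 := by
  intro s hs
  have h1 : HasDerivWithinAt f (deriv f s) (Set.Iic a) s := (hf s).hasDerivAt.hasDerivWithinAt
  have h2 : HasDerivWithinAt f 0 (Set.Iic a) s :=
    (hasDerivWithinAt_const s (Set.Iic a) (0 : ℝ)).congr (fun y hy => h0 y hy) (h0 s hs)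
  exact (uniqueDiffOn_Iic a s hs).eq_deriv _ h1 h2

theorem deriv_eq_zero_of_eq_zero_Ici {f : ℝ → ℝ} (hf : Differentiable ℝ f) (a : ℝ)
    (h0 : ∀ s, a ≤ s → f s = 0) : ∀ s, a ≤ s → deriv f s = 0 := by
  intro s hs
  have h1 : HasDerivWithinAt f (deriv f s) (Set.Ici a) s := (hf s).hasDerivAt.hasDerivWithinAt
  have h2 : HasDerivWithinAt f 0 (Set.Ici a) s :=
    (hasDerivWithinAt_const s (Set.Ici a) (0 : ℝ)).congr (fun y hy => h0 y hy) (h0 s hs)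
  exact (uniqueDiffOn_Ici a s hs).eq_deriv _ h1 h2

theorem differentiable_iteratedDeriv_of_smooth (hB : ∀ n : ℕ, ContDiff ℝ n B) (j : ℕ) :
    Differentiable ℝ (iteratedDeriv j B) :=
  (hB (j + 1)).differentiable_iteratedDeriv j (by exact_mod_cast Nat.lt_succ_self j)

theorem iteratedDeriv_eq_zero_of_le (hB : ∀ n : ℕ, ContDiff ℝ n B) (hB0 : ∀ s, s ≤ 0 → B s = 0) :
    ∀ (j : ℕ) (s : ℝ), s ≤ 0 → iteratedDeriv j B s = 0 := by
  intro j
  induction j with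
  | zero => intro s hs; simpa using hB0 s hs
  | succ j ih =>
    intro s hs
    rw [iteratedDeriv_succ]
    exact deriv_eq_zero_of_eq_zero_Iic (differentiable_iteratedDeriv_of_smooth B hB j) 0 ih s hs

theorem iteratedDeriv_eq_zero_of_ge (hB : ∀ n : ℕ, ContDiff ℝ n B) (hB1 : ∀ s, 1 ≤ s → B s = 0) :
    ∀ (j : ℕ) (s : ℝ), 1 ≤ s → iteratedDeriv j B s = 0 := by
  intro j
  induction j with
  | zero => intro s hs; simpa using hB1 s hs
  | succ j ih =>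
    intro s hs
    rw [iteratedDeriv_succ]
    exact deriv_eq_zero_of_eq_zero_Ici (differentiable_iteratedDeriv_of_smooth B hB j) 1 ih s hs

theorem exists_bound_iteratedDeriv (hB : ∀ n : ℕ, ContDiff ℝ n B) (hB0 : ∀ s, s ≤ 0 → B s = 0)
    (hB1 : ∀ s, 1 ≤ s → B s = 0) (j : ℕ) :
    ∃ C : ℝ, 0 ≤ C ∧ ∀ s, |iteratedDeriv j B s| ≤ C := by
  have hcont : Continuous (iteratedDeriv j B) :=
    (differentiable_iteratedDeriv_of_smooth B hB j).continuous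
  obtain ⟨C, hC⟩ := isCompact_Icc.exists_bound_of_continuousOn
    (hcont.continuousOn (s := Set.Icc (0 : ℝ) 1))
  refine ⟨max C 0, le_max_right _ _, fun s => ?_⟩
  by_cases h0 : s ≤ 0
  · rw [iteratedDeriv_eq_zero_of_le B hB hB0 j s h0]; simp
  · by_cases h1 : 1 ≤ s
    · rw [iteratedDeriv_eq_zero_of_ge B hB hB1 j s h1]; simp
    · have := hC s ⟨(not_le.mp h0).le, (not_le.mp h1).le⟩
      rw [Real.norm_eq_abs] at this
      exact this.trans (le_max_left _ _)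

theorem bumpTerm_hasDerivAt (hB : ∀ n : ℕ, ContDiff ℝ n B) (j N : ℕ) (y : ℝ) :
    HasDerivAt (bumpTerm B η j N) (bumpTerm B η (j + 1) N y) y := by
  have hd : Differentiable ℝ (iteratedDeriv j B) := differentiable_iteratedDeriv_of_smooth B hB j
  have h1 : HasDerivAt (fun y : ℝ => (y - 1 / ((N : ℝ) + 3)) * (((N : ℝ) + 2) * ((N : ℝ) + 3)))
      (1 * (((N : ℝ) + 2) * ((N : ℝ) + 3))) y :=
    ((hasDerivAt_id y).sub_const _).mul_const _
  have h2 : HasDerivAt (iteratedDeriv j B)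
      (iteratedDeriv (j + 1) B ((y - 1 / ((N : ℝ) + 3)) * (((N : ℝ) + 2) * ((N : ℝ) + 3))))
      ((y - 1 / ((N : ℝ) + 3)) * (((N : ℝ) + 2) * ((N : ℝ) + 3))) := by
    rw [iteratedDeriv_succ]
    exact (hd _).hasDerivAt
  have h3 := (h2.comp y h1).const_mul (η N * (((N : ℝ) + 2) * ((N : ℝ) + 3)) ^ j)
  have hval : bumpTerm B η (j + 1) N y = η N * (((N : ℝ) + 2) * ((N : ℝ) + 3)) ^ j *
      (iteratedDeriv (j + 1) B ((y - 1 / ((N : ℝ) + 3)) * (((N : ℝ) + 2) * ((N : ℝ) + 3))) *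
        (1 * (((N : ℝ) + 2) * ((N : ℝ) + 3)))) := by
    unfold bumpTerm
    ring
  rw [hval]
  exact h3

theorem bumpTerm_eq_zero_of_le (hB : ∀ n : ℕ, ContDiff ℝ n B) (hB0 : ∀ s, s ≤ 0 → B s = 0)
    (j N : ℕ) {y : ℝ} (hy : y ≤ 1 / ((N : ℝ) + 3)) : bumpTerm B η j N y = 0 := by
  unfold bumpTerm
  have hN : (0 : ℝ) ≤ (N : ℝ) := Nat.cast_nonneg N
  have harg : (y - 1 / ((N : ℝ) + 3)) * (((N : ℝ) + 2) * ((N : ℝ) + 3)) ≤ 0 :=
    mul_nonpos_of_nonpos_of_nonneg (by linarith) (by positivity)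
  rw [iteratedDeriv_eq_zero_of_le B hB hB0 j _ harg, mul_zero]

theorem bumpTerm_eq_zero_of_ge (hB : ∀ n : ℕ, ContDiff ℝ n B) (hB1 : ∀ s, 1 ≤ s → B s = 0)
    (j N : ℕ) {y : ℝ} (hy : 1 / ((N : ℝ) + 2) ≤ y) : bumpTerm B η j N y = 0 := by
  unfold bumpTerm
  have hN : (0 : ℝ) ≤ (N : ℝ) := Nat.cast_nonneg N
  have h2 : (0 : ℝ) < (N : ℝ) + 2 := by linarith
  have h3 : (0 : ℝ) < (N : ℝ) + 3 := by linarith
  have hy2 : 1 ≤ y * ((N : ℝ) + 2) := by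
    rw [div_le_iff₀ h2] at hy
    exact hy
  have harg : 1 ≤ (y - 1 / ((N : ℝ) + 3)) * (((N : ℝ) + 2) * ((N : ℝ) + 3)) := by
    have e : (y - 1 / ((N : ℝ) + 3)) * (((N : ℝ) + 2) * ((N : ℝ) + 3))
        = y * ((N : ℝ) + 2) * ((N : ℝ) + 3) - ((N : ℝ) + 2) := by
      field_simp
    rw [e]
    nlinarith
  rw [iteratedDeriv_eq_zero_of_ge B hB hB1 j _ harg, mul_zero]

theorem summable_bound (C : ℝ) (k : ℕ) :
    Summable (fun N : ℕ => C * ((N : ℝ) + 3) ^ k * (1 / 2 : ℝ) ^ N) := by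
  have h : Summable (fun n : ℕ => ((n : ℝ)) ^ k * (1 / 2 : ℝ) ^ n) :=
    summable_pow_mul_geometric_of_norm_lt_one k (r := (1 / 2 : ℝ)) (by norm_num)
  have h3 := (summable_nat_add_iff 3).mpr h
  have h4 := h3.mul_left (8 * C)
  refine h4.congr (fun N => ?_)
  push_cast
  ring

theorem bumpTerm_bound (hη : ∀ N, |η N| ≤ (1 / 2 : ℝ) ^ N) {j : ℕ} {C : ℝ}
    (hC : ∀ s, |iteratedDeriv j B s| ≤ C) (N : ℕ) (y : ℝ) :
    |bumpTerm B η j N y| ≤ C * ((N : ℝ) + 3) ^ (2 * j) * (1 / 2 : ℝ) ^ N := by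
  unfold bumpTerm
  have hN : (0 : ℝ) ≤ (N : ℝ) := Nat.cast_nonneg N
  have hw0 : (0 : ℝ) ≤ ((N : ℝ) + 2) * ((N : ℝ) + 3) := by positivity
  have hw : ((N : ℝ) + 2) * ((N : ℝ) + 3) ≤ ((N : ℝ) + 3) ^ 2 := by nlinarith
  have hwj : (((N : ℝ) + 2) * ((N : ℝ) + 3)) ^ j ≤ ((N : ℝ) + 3) ^ (2 * j) := by
    rw [pow_mul]
    exact pow_le_pow_left₀ hw0 hw j
  have hC0 : 0 ≤ C := (abs_nonneg _).trans (hC 0)
  rw [abs_mul, abs_mul, abs_of_nonneg (pow_nonneg hw0 j)]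
  calc |η N| * (((N : ℝ) + 2) * ((N : ℝ) + 3)) ^ j *
        |iteratedDeriv j B ((y - 1 / ((N : ℝ) + 3)) * (((N : ℝ) + 2) * ((N : ℝ) + 3)))|
      ≤ (1 / 2 : ℝ) ^ N * ((N : ℝ) + 3) ^ (2 * j) * C := by
        apply mul_le_mul _ (hC _) (abs_nonneg _) (by positivity)
        exact mul_le_mul (hη N) hwj (pow_nonneg hw0 j) (by positivity)
    _ = C * ((N : ℝ) + 3) ^ (2 * j) * (1 / 2 : ℝ) ^ N := by ring

theorem bumpDer_hasDerivAt (hB : ∀ n : ℕ, ContDiff ℝ n B) (hB0 : ∀ s, s ≤ 0 → B s = 0)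
    (hB1 : ∀ s, 1 ≤ s → B s = 0) (hη : ∀ N, |η N| ≤ (1 / 2 : ℝ) ^ N) (j : ℕ) (y : ℝ) :
    HasDerivAt (bumpDer B η j) (bumpDer B η (j + 1) y) y := by
  obtain ⟨C, -, hC⟩ := exists_bound_iteratedDeriv B hB hB0 hB1 (j + 1)
  have hsum0 : Summable (fun N : ℕ => bumpTerm B η j N 0) := by
    have : (fun N : ℕ => bumpTerm B η j N 0) = fun _ => 0 := by
      funext N
      apply bumpTerm_eq_zero_of_le B η hB hB0
      have hN : (0 : ℝ) ≤ (N : ℝ) := Nat.cast_nonneg N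
      positivity
    rw [this]
    exact summable_zero
  exact hasDerivAt_tsum (summable_bound C (2 * (j + 1)))
    (fun N z => bumpTerm_hasDerivAt B η hB j N z)
    (fun N z => by
      rw [Real.norm_eq_abs]
      exact bumpTerm_bound B η hη hC N z) hsum0 y

theorem bumpSum_eq_bumpDer : bumpSum B η = bumpDer B η 0 := by
  funext y
  unfold bumpSum bumpDer bumpTerm
  congr 1
  funext N
  simp

theorem iteratedDeriv_bumpSum (hB : ∀ n : ℕ, ContDiff ℝ n B) (hB0 : ∀ s, s ≤ 0 → B s = 0)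
    (hB1 : ∀ s, 1 ≤ s → B s = 0) (hη : ∀ N, |η N| ≤ (1 / 2 : ℝ) ^ N) (j : ℕ) :
    iteratedDeriv j (bumpSum B η) = bumpDer B η j := by
  induction j with
  | zero => rw [iteratedDeriv_zero, bumpSum_eq_bumpDer]
  | succ j ih =>
    rw [iteratedDeriv_succ, ih]
    funext y
    exact (bumpDer_hasDerivAt B η hB hB0 hB1 hη j y).deriv

theorem bumpSum_contDiff (hB : ∀ n : ℕ, ContDiff ℝ n B) (hB0 : ∀ s, s ≤ 0 → B s = 0)
    (hB1 : ∀ s, 1 ≤ s → B s = 0) (hη : ∀ N, |η N| ≤ (1 / 2 : ℝ) ^ N) (n : ℕ) :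
    ContDiff ℝ n (bumpSum B η) := by
  have h : ContDiff ℝ ((n : ℕ∞) : WithTop ℕ∞) (bumpSum B η) := by
    apply contDiff_of_differentiable_iteratedDeriv
    intro m _
    rw [iteratedDeriv_bumpSum B η hB hB0 hB1 hη m]
    exact fun y => (bumpDer_hasDerivAt B η hB hB0 hB1 hη m y).differentiableAt
  exact_mod_cast h

theorem bumpDer_eq_zero_of_nonpos (hB : ∀ n : ℕ, ContDiff ℝ n B) (hB0 : ∀ s, s ≤ 0 → B s = 0)
    (j : ℕ) {y : ℝ} (hy : y ≤ 0) : bumpDer B η j y = 0 := by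
  unfold bumpDer
  have : (fun N : ℕ => bumpTerm B η j N y) = fun _ => 0 := by
    funext N
    apply bumpTerm_eq_zero_of_le B η hB hB0
    have hN : (0 : ℝ) ≤ (N : ℝ) := Nat.cast_nonneg N
    have : (0 : ℝ) ≤ 1 / ((N : ℝ) + 3) := by positivity
    linarith
  rw [this, tsum_zero]

theorem bumpDer_eq_zero_of_half_le (hB : ∀ n : ℕ, ContDiff ℝ n B) (hB1 : ∀ s, 1 ≤ s → B s = 0)
    (j : ℕ) {y : ℝ} (hy : 1 / 2 ≤ y) : bumpDer B η j y = 0 := by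
  unfold bumpDer
  have : (fun N : ℕ => bumpTerm B η j N y) = fun _ => 0 := by
    funext N
    apply bumpTerm_eq_zero_of_ge B η hB hB1
    have hN : (0 : ℝ) ≤ (N : ℝ) := Nat.cast_nonneg N
    have : 1 / ((N : ℝ) + 2) ≤ 1 / 2 := by
      apply one_div_le_one_div_of_le (by norm_num) (by linarith)
    linarith
  rw [this, tsum_zero]

theorem bumpPer_eventuallyEq (hB : ∀ n : ℕ, ContDiff ℝ n B) (hB0 : ∀ s, s ≤ 0 → B s = 0)
    (hB1 : ∀ s, 1 ≤ s → B s = 0) (x : ℝ) :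
    bumpPer B η =ᶠ[nhds x] fun y => bumpSum B η (y - (⌊x⌋ : ℝ)) := by
  have hopen : Set.Ioo ((⌊x⌋ : ℝ) - 1 / 2) ((⌊x⌋ : ℝ) + 1) ∈ nhds x :=
    Ioo_mem_nhds (by linarith [Int.floor_le x]) (Int.lt_floor_add_one x)
  filter_upwards [hopen] with y hy
  unfold bumpPer
  by_cases hym : (⌊x⌋ : ℝ) ≤ y
  · have hfl : ⌊y⌋ = ⌊x⌋ := Int.floor_eq_iff.mpr ⟨hym, hy.2⟩
    rw [← Int.self_sub_floor, hfl]
  · have hym := not_le.mp hym
    have hfl : ⌊y⌋ = ⌊x⌋ - 1 :=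
      Int.floor_eq_iff.mpr ⟨by push_cast; linarith [hy.1], by push_cast; linarith⟩
    have e1 : bumpSum B η (y - (⌊x⌋ : ℝ)) = 0 := by
      rw [bumpSum_eq_bumpDer]
      exact bumpDer_eq_zero_of_nonpos B η hB hB0 0 (by linarith)
    have e2 : bumpSum B η (Int.fract y) = 0 := by
      rw [bumpSum_eq_bumpDer]
      apply bumpDer_eq_zero_of_half_le B η hB hB1 0
      rw [← Int.self_sub_floor, hfl]
      push_cast
      linarith [hy.1]
    rw [e1, e2]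

theorem bumpPer_contDiff (hB : ∀ n : ℕ, ContDiff ℝ n B) (hB0 : ∀ s, s ≤ 0 → B s = 0)
    (hB1 : ∀ s, 1 ≤ s → B s = 0) (hη : ∀ N, |η N| ≤ (1 / 2 : ℝ) ^ N) (n : ℕ) :
    ContDiff ℝ n (bumpPer B η) := by
  rw [contDiff_iff_contDiffAt]
  intro x
  have h : ContDiff ℝ n (fun y : ℝ => bumpSum B η (y - (⌊x⌋ : ℝ))) :=
    (bumpSum_contDiff B η hB hB0 hB1 hη n).comp (contDiff_id.sub contDiff_const)
  exact h.contDiffAt.congr_of_eventuallyEq (bumpPer_eventuallyEq B η hB hB0 hB1 x)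

theorem bumpPer_iteratedDeriv_eq (hB : ∀ n : ℕ, ContDiff ℝ n B) (hB0 : ∀ s, s ≤ 0 → B s = 0)
    (hB1 : ∀ s, 1 ≤ s → B s = 0) (hη : ∀ N, |η N| ≤ (1 / 2 : ℝ) ^ N) (j : ℕ) (x : ℝ) :
    iteratedDeriv j (bumpPer B η) x = bumpDer B η j (Int.fract x) := by
  rw [(bumpPer_eventuallyEq B η hB hB0 hB1 x).iteratedDeriv_eq j, iteratedDeriv_comp_sub_const,
    iteratedDeriv_bumpSum B η hB hB0 hB1 hη j]
  show bumpDer B η j (x - (⌊x⌋ : ℝ)) = bumpDer B η j (Int.fract x)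
  rw [Int.self_sub_floor]

theorem bumpPer_iteratedDeriv (hB : ∀ n : ℕ, ContDiff ℝ n B) (hB0 : ∀ s, s ≤ 0 → B s = 0)
    (hB1 : ∀ s, 1 ≤ s → B s = 0) (hη : ∀ N, |η N| ≤ (1 / 2 : ℝ) ^ N) (j : ℕ) (x : ℝ) :
    iteratedDeriv j (bumpPer B η) x =
      if 0 < Int.fract x ∧ Int.fract x ≤ 1 / 2 then
        η (⌊1 / Int.fract x⌋₊ - 2)
          * ((((⌊1 / Int.fract x⌋₊ - 2 : ℕ) : ℝ) + 2) * (((⌊1 / Int.fract x⌋₊ - 2 : ℕ) : ℝ) + 3)) ^ j
          * iteratedDeriv j B ((Int.fract x - 1 / (((⌊1 / Int.fract x⌋₊ - 2 : ℕ) : ℝ) + 3))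
              * ((((⌊1 / Int.fract x⌋₊ - 2 : ℕ) : ℝ) + 2) * (((⌊1 / Int.fract x⌋₊ - 2 : ℕ) : ℝ) + 3)))
      else 0 := by
  rw [bumpPer_iteratedDeriv_eq B η hB hB0 hB1 hη j x]
  set y : ℝ := Int.fract x with hy
  split_ifs with hc
  · obtain ⟨hy0, hy1⟩ := hc
    set m : ℕ := ⌊1 / y⌋₊ with hm
    have hinv : (0 : ℝ) ≤ 1 / y := by positivity
    have hm1 : (m : ℝ) ≤ 1 / y := Nat.floor_le hinv
    have hm2 : 1 / y < (m : ℝ) + 1 := Nat.lt_floor_add_one (1 / y)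
    have hm3 : 2 ≤ m := by
      apply Nat.le_floor
      rw [le_div_iff₀ hy0]
      push_cast
      linarith
    have hcast : ((m - 2 : ℕ) : ℝ) = (m : ℝ) - 2 := by
      rw [Nat.cast_sub hm3]
      push_cast
      ring
    have hym1 : y * (m : ℝ) ≤ 1 := by
      rw [le_div_iff₀ hy0] at hm1
      linarith
    have hym2 : 1 < y * ((m : ℝ) + 1) := by
      rw [div_lt_iff₀ hy0] at hm2
      linarith
    have hsingle : bumpDer B η j y = bumpTerm B η j (m - 2) y := by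
      unfold bumpDer
      apply tsum_eq_single (m - 2)
      intro N hN
      have hNr : (0 : ℝ) ≤ (N : ℝ) := Nat.cast_nonneg N
      rcases lt_or_gt_of_ne hN with hlt | hgt
      · apply bumpTerm_eq_zero_of_le B η hB hB0
        have h1 : (N : ℝ) + 1 ≤ ((m - 2 : ℕ) : ℝ) := by exact_mod_cast hlt
        rw [hcast] at h1
        rw [le_div_iff₀ (by linarith)]
        nlinarith
      · apply bumpTerm_eq_zero_of_ge B η hB hB1
        have h1 : ((m - 2 : ℕ) : ℝ) + 1 ≤ (N : ℝ) := by exact_mod_cast hgt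
        rw [hcast] at h1
        rw [div_le_iff₀ (by linarith)]
        nlinarith
    rw [hsingle]
    rfl
  · rw [not_and_or] at hc
    rcases hc with h | h
    · exact bumpDer_eq_zero_of_nonpos B η hB hB0 j (not_lt.mp h)
    · exact bumpDer_eq_zero_of_half_le B η hB hB1 j (le_of_lt (not_le.mp h))

end

end Vale.Agent.H10
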